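import Mathlib

namespace Vale.Agent.Results.P344.LinearBound

open Finset Module

/-- The values available to gate number `t` of a straight-line linear circuit: the constant `0`,
the inputs `x_i` (linear forms are represented by their coefficient vectors, so `x_i` is the
`i`-th standard basis vector), and the values `c s` of the earlier gates `s < t`. -/
def Avail {n : ℕ} (c : ℕ → Fin n → ℂ) (t : ℕ) : Set (Fin n → ℂ) :=
  {u | u = 0 ∨ (∃ i : Fin n, u = Pi.single i 1) ∨ ∃ s < t, u = c s}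

/-- `c 0, …, c (T-1)` are the values (coefficient vectors of linear forms) of the `T` gates of a
linear circuit: each gate computes `u + v`, `u - v` or `l • u` from available values. -/
def IsLinearCircuit {n : ℕ} (T : ℕ) (c : ℕ → Fin n → ℂ) : Prop :=
  ∀ t < T, (∃ u ∈ Avail c t, ∃ v ∈ Avail c t, c t = u + v ∨ c t = u - v) ∨
    (∃ u ∈ Avail c t, ∃ l : ℂ, c t = l • u)

/-- Row `j` of the unnormalized discrete Fourier matrix `F_n = (ζ_n^{jk})`,
`ζ_n = exp(2πi/n)`: the coefficient vector of the `j`-th output `∑_k ζ_n^{jk} x_k`. -/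
noncomputable def dftRow (n : ℕ) (j : Fin n) : Fin n → ℂ :=
  fun k => Complex.exp (2 * (Real.pi : ℂ) * Complex.I / (n : ℂ)) ^ (j.val * k.val)

/-- Gate `t` is of scalar type. -/
def Scal {n : ℕ} (c : ℕ → Fin n → ℂ) (t : ℕ) : Prop :=
  ∃ u ∈ Avail c t, ∃ l : ℂ, c t = l • u

/-- The cut space: rational vectors that are constant on the support of every gate value
computed before time `t`. -/
def Zsp {n : ℕ} (c : ℕ → Fin n → ℂ) (t : ℕ) : Submodule ℚ (Fin n → ℚ) where
  carrier := {z | ∀ s < t, ∀ i i', c s i ≠ 0 → c s i' ≠ 0 → z i = z i'}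
  add_mem' := by
    intro a b ha hb s hs i i' hi hi'
    simp only [Pi.add_apply]
    rw [ha s hs i i' hi hi', hb s hs i i' hi hi']
  zero_mem' := by
    intro s hs i i' _ _
    rfl
  smul_mem' := by
    intro q a ha s hs i i' hi hi'
    simp only [Pi.smul_apply]
    rw [ha s hs i i' hi hi']

theorem mem_Zsp {n : ℕ} (c : ℕ → Fin n → ℂ) (t : ℕ) (z : Fin n → ℚ) :
    z ∈ Zsp c t ↔ ∀ s < t, ∀ i i', c s i ≠ 0 → c s i' ≠ 0 → z i = z i' := Iff.rfl

theorem availConst {n : ℕ} (c : ℕ → Fin n → ℂ) (t : ℕ) (z : Fin n → ℚ) (hz : z ∈ Zsp c t)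
    (u : Fin n → ℂ) (hu : u ∈ Avail c t) (i i' : Fin n) (hi : u i ≠ 0) (hi' : u i' ≠ 0) :
    z i = z i' := by
  rcases hu with rfl | ⟨k, rfl⟩ | ⟨s, hs, rfl⟩
  · exact absurd rfl hi
  · have h1 : i = k := by
      by_contra h
      exact hi (by simp [h])
    have h2 : i' = k := by
      by_contra h
      exact hi' (by simp [h])
    rw [h1, h2]
  · exact hz s hs i i' hi hi'

theorem step_scal {n : ℕ} (c : ℕ → Fin n → ℂ) (t : ℕ) (h : Scal c t) :
    Zsp c t ≤ Zsp c (t + 1) := by
  intro z hz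
  obtain ⟨u, hu, l, hl⟩ := h
  rw [mem_Zsp]
  intro s hs i i' hi hi'
  rcases Nat.lt_succ_iff_lt_or_eq.mp hs with hlt | rfl
  · exact hz s hlt i i' hi hi'
  · have h1 : u i ≠ 0 := by
      intro h0
      apply hi
      rw [hl]
      simp [h0]
    have h2 : u i' ≠ 0 := by
      intro h0
      apply hi'
      rw [hl]
      simp [h0]
    exact availConst c s z hz u hu i i' h1 h2

theorem step_bin {n : ℕ} (c : ℕ → Fin n → ℂ) (t : ℕ)
    (h : ∃ u ∈ Avail c t, ∃ v ∈ Avail c t, c t = u + v ∨ c t = u - v) :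
    ∃ φ : (Fin n → ℚ) →ₗ[ℚ] ℚ, Zsp c t ⊓ LinearMap.ker φ ≤ Zsp c (t + 1) := by
  obtain ⟨u, hu, v, hv, huv⟩ := h
  have key : ∀ a, c t a ≠ 0 → u a ≠ 0 ∨ v a ≠ 0 := by
    intro a ha
    by_contra hcon
    push Not at hcon
    apply ha
    rcases huv with h | h <;> rw [h] <;> simp [hcon.1, hcon.2]
  by_cases hex : (∃ i, u i ≠ 0) ∧ (∃ i', v i' ≠ 0)
  · obtain ⟨⟨i0, hi0⟩, ⟨i1, hi1⟩⟩ := hex
    refine ⟨(LinearMap.proj (R := ℚ) (φ := fun _ : Fin n => ℚ) i0 - LinearMap.proj (R := ℚ) (φ := fun _ : Fin n => ℚ) i1), ?_⟩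
    rintro z ⟨hz, hker⟩
    have hker' : z i0 = z i1 := by
      have : (LinearMap.proj (R := ℚ) (φ := fun _ : Fin n => ℚ) i0 - LinearMap.proj (R := ℚ) (φ := fun _ : Fin n => ℚ) i1) z = 0 := hker
      simp only [LinearMap.sub_apply, LinearMap.proj_apply] at this
      linarith
    rw [mem_Zsp]
    intro s hs a b ha hb
    rcases Nat.lt_succ_iff_lt_or_eq.mp hs with hlt | rfl
    · exact hz s hlt a b ha hb
    · rcases key a ha with hua | hva <;> rcases key b hb with hub | hvb
      · exact availConst c s z hz u hu a b hua hub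
      · rw [availConst c s z hz u hu a i0 hua hi0, hker',
          availConst c s z hz v hv i1 b hi1 hvb]
      · rw [availConst c s z hz v hv a i1 hva hi1, ← hker',
          availConst c s z hz u hu i0 b hi0 hub]
      · exact availConst c s z hz v hv a b hva hvb
  · refine ⟨0, ?_⟩
    rintro z ⟨hz, -⟩
    rw [mem_Zsp]
    intro s hs a b ha hb
    rcases Nat.lt_succ_iff_lt_or_eq.mp hs with hlt | rfl
    · exact hz s hlt a b ha hb
    · rw [not_and_or] at hex
      rcases hex with hex | hex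
      · push Not at hex
        have hva : v a ≠ 0 := (key a ha).resolve_left (fun h => h (hex a))
        have hvb : v b ≠ 0 := (key b hb).resolve_left (fun h => h (hex b))
        exact availConst c s z hz v hv a b hva hvb
      · push Not at hex
        have hua : u a ≠ 0 := (key a ha).resolve_right (fun h => h (hex a))
        have hub : u b ≠ 0 := (key b hb).resolve_right (fun h => h (hex b))
        exact availConst c s z hz u hu a b hua hub

theorem finrank_inf_ker {n : ℕ} (Z : Submodule ℚ (Fin n → ℚ)) (φ : (Fin n → ℚ) →ₗ[ℚ] ℚ) :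
    finrank ℚ Z ≤ finrank ℚ (Z ⊓ LinearMap.ker φ : Submodule ℚ (Fin n → ℚ)) + 1 := by
  have h1 := Submodule.finrank_sup_add_finrank_inf_eq Z (LinearMap.ker φ)
  have h2 : finrank ℚ (Z ⊔ LinearMap.ker φ : Submodule ℚ (Fin n → ℚ)) ≤ finrank ℚ (Fin n → ℚ) :=
    Submodule.finrank_le _
  have h3 := LinearMap.finrank_range_add_finrank_ker φ
  have h4 : finrank ℚ (LinearMap.range φ) ≤ finrank ℚ ℚ := Submodule.finrank_le _
  rw [Module.finrank_self] at h4
  omega

open Classical in
theorem L1 {n : ℕ} (c : ℕ → Fin n → ℂ) (t : ℕ)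
    (hc : ∀ s < t, (∃ u ∈ Avail c s, ∃ v ∈ Avail c s, c s = u + v ∨ c s = u - v) ∨ Scal c s) :
    n ≤ finrank ℚ (Zsp c t) + ((range t).filter (fun s => ¬ Scal c s)).card := by
  induction t with
  | zero =>
    have : Zsp c 0 = ⊤ := by
      rw [eq_top_iff]
      intro z _
      rw [mem_Zsp]
      intro s hs
      exact absurd hs (Nat.not_lt_zero s)
    rw [this, finrank_top, Module.finrank_fin_fun]
    omega
  | succ t ih =>
    have ih' := ih (fun s hs => hc s (Nat.lt_succ_of_lt hs))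
    rw [Finset.range_add_one, Finset.filter_insert]
    by_cases hs : Scal c t
    · have hle := Submodule.finrank_mono (step_scal c t hs)
      simp only [hs, not_true_eq_false, if_false]
      omega
    · have hbin := (hc t (Nat.lt_succ_self t)).resolve_right hs
      obtain ⟨φ, hφ⟩ := step_bin c t hbin
      have hle := Submodule.finrank_mono hφ
      have h5 := finrank_inf_ker (Zsp c t) φ
      simp only [hs, not_false_eq_true, if_true]
      rw [Finset.card_insert_of_notMem (by simp)]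
      omega

theorem L2 {n : ℕ} (hn : 1 ≤ n) (c : ℕ → Fin n → ℂ) (t : ℕ)
    (h : ∃ s < t, ∀ i, c s i ≠ 0) : finrank ℚ (Zsp c t) ≤ 1 := by
  obtain ⟨s, hs, hfull⟩ := h
  have hle : Zsp c t ≤ Submodule.span ℚ {(fun _ => (1 : ℚ) : Fin n → ℚ)} := by
    intro z hz
    rw [Submodule.mem_span_singleton]
    refine ⟨z ⟨0, hn⟩, ?_⟩
    funext i
    simp only [Pi.smul_apply, smul_eq_mul, mul_one]
    exact hz s hs ⟨0, hn⟩ i (hfull _) (hfull _)
  refine (Submodule.finrank_mono hle).trans ?_
  rw [finrank_span_singleton]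
  intro h0
  have := congrFun h0 ⟨0, hn⟩
  simp at this

theorem zeta_prim {n : ℕ} (hn : 2 ≤ n) :
    IsPrimitiveRoot (Complex.exp (2 * (Real.pi : ℂ) * Complex.I / (n : ℂ))) n :=
  Complex.isPrimitiveRoot_exp n (by omega)

theorem dftRow_ne_zero {n : ℕ} (j k : Fin n) : dftRow n j k ≠ 0 := by
  unfold dftRow
  exact pow_ne_zero _ (Complex.exp_ne_zero _)

theorem exists_ne_fin {n : ℕ} (hn : 2 ≤ n) (i : Fin n) : ∃ k : Fin n, k ≠ i := by
  by_cases hi : i.val = 0
  · refine ⟨⟨1, by omega⟩, fun h => ?_⟩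
    rw [← h] at hi
    simp at hi
  · refine ⟨⟨0, by omega⟩, fun h => ?_⟩
    rw [← h] at hi
    simp at hi

open Classical in
theorem partB {n : ℕ} (hn : 2 ≤ n) (T : ℕ) (c : ℕ → Fin n → ℂ)
    (hc : IsLinearCircuit T c) (hout : ∀ j : Fin n, dftRow n j ∈ Avail c T) :
    2 * n - 2 ≤ ((range T).filter (fun s => ¬ Scal c s)).card := by
  have hζ := zeta_prim hn
  -- each row is computed at some gate
  have hgate : ∀ j : Fin n, ∃ t, t < T ∧ c t = dftRow n j := by
    intro j
    rcases hout j with h | ⟨i, h⟩ | ⟨s, hs, h⟩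
    · exact absurd (congrFun h ⟨0, by omega⟩) (dftRow_ne_zero j _)
    · exfalso
      obtain ⟨k, hk⟩ := exists_ne_fin hn i
      have := congrFun h k
      rw [Pi.single_apply, if_neg hk] at this
      exact dftRow_ne_zero j k this
    · exact ⟨s, hs, h.symm⟩
  have hP : ∀ j : Fin n, ∃ t, ∃ μ : ℂ, μ ≠ 0 ∧ c t = μ • dftRow n j := by
    intro j
    obtain ⟨t, -, ht⟩ := hgate j
    exact ⟨t, 1, one_ne_zero, by rw [ht, one_smul]⟩
  let b : Fin n → ℕ := fun j => Nat.find (hP j)
  have b_spec : ∀ j, ∃ μ : ℂ, μ ≠ 0 ∧ c (b j) = μ • dftRow n j := fun j => Nat.find_spec (hP j)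
  have b_min : ∀ j s, s < b j → ¬ ∃ μ : ℂ, μ ≠ 0 ∧ c s = μ • dftRow n j :=
    fun j s hs => Nat.find_min (hP j) hs
  have b_lt : ∀ j, b j < T := by
    intro j
    obtain ⟨t, ht, htc⟩ := hgate j
    exact lt_of_le_of_lt (Nat.find_min' (hP j) ⟨1, one_ne_zero, by rw [htc, one_smul]⟩) ht
  have b_full : ∀ j i, c (b j) i ≠ 0 := by
    intro j i
    obtain ⟨μ, hμ, h⟩ := b_spec j
    rw [h]
    simp only [Pi.smul_apply, smul_eq_mul]
    exact mul_ne_zero hμ (dftRow_ne_zero j i)
  have b_notscal : ∀ j, ¬ Scal c (b j) := by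
    rintro j ⟨u, hu, l, hl⟩
    rcases hu with rfl | ⟨i, rfl⟩ | ⟨s, hs, rfl⟩
    · apply b_full j ⟨0, by omega⟩
      rw [hl]
      simp
    · obtain ⟨k, hk⟩ := exists_ne_fin hn i
      apply b_full j k
      rw [hl]
      simp [hk]
    · obtain ⟨μ, hμ, h⟩ := b_spec j
      have hl0 : l ≠ 0 := by
        rintro rfl
        apply b_full j ⟨0, by omega⟩
        rw [hl]
        simp
      apply b_min j s hs
      refine ⟨l⁻¹ * μ, mul_ne_zero (inv_ne_zero hl0) hμ, ?_⟩
      have hcs : c s = l⁻¹ • c (b j) := by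
        rw [hl, smul_smul, inv_mul_cancel₀ hl0, one_smul]
      rw [hcs, h, smul_smul]
  have b_inj : Function.Injective b := by
    intro j j' hjj
    obtain ⟨μ, hμ, h⟩ := b_spec j
    obtain ⟨μ', hμ', h'⟩ := b_spec j'
    rw [hjj] at h
    have e := h.symm.trans h'
    have e0 := congrFun e ⟨0, by omega⟩
    have e1 := congrFun e ⟨1, by omega⟩
    simp only [Pi.smul_apply, smul_eq_mul, dftRow, mul_zero, pow_zero, mul_one] at e0 e1
    rw [← e0] at e1
    have := mul_left_cancel₀ hμ e1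
    exact Fin.ext (hζ.pow_inj j.isLt j'.isLt this)
  have : Nonempty (Fin n) := ⟨⟨0, by omega⟩⟩
  obtain ⟨j0, hj0⟩ := Finite.exists_min b
  have h1 := L1 c (b j0 + 1) (fun s hs => hc s (by have := b_lt j0; omega))
  have h2 := L2 (by omega : 1 ≤ n) c (b j0 + 1) ⟨b j0, Nat.lt_succ_self _, b_full j0⟩
  have hF2card : ((univ.erase j0).image b).card = n - 1 := by
    rw [Finset.card_image_of_injective _ b_inj, Finset.card_erase_of_mem (Finset.mem_univ _),
      Finset.card_univ, Fintype.card_fin]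
  have hdisj : Disjoint ((range (b j0 + 1)).filter (fun s => ¬ Scal c s))
      ((univ.erase j0).image b) := by
    rw [Finset.disjoint_left]
    intro s hs1 hs2
    rw [Finset.mem_filter, Finset.mem_range] at hs1
    rw [Finset.mem_image] at hs2
    obtain ⟨j, hj, rfl⟩ := hs2
    have hne : j ≠ j0 := Finset.ne_of_mem_erase hj
    have hle := hj0 j
    have hne' : b j ≠ b j0 := fun h => hne (b_inj h)
    omega
  have hsub : (range (b j0 + 1)).filter (fun s => ¬ Scal c s) ∪ (univ.erase j0).image b ⊆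
      (range T).filter (fun s => ¬ Scal c s) := by
    intro s hs
    rw [Finset.mem_union] at hs
    rw [Finset.mem_filter, Finset.mem_range]
    rcases hs with hs | hs
    · rw [Finset.mem_filter, Finset.mem_range] at hs
      exact ⟨by have := b_lt j0; omega, hs.2⟩
    · rw [Finset.mem_image] at hs
      obtain ⟨j, -, rfl⟩ := hs
      exact ⟨b_lt j, b_notscal j⟩
  have hfin := Finset.card_le_card hsub
  rw [Finset.card_union_of_disjoint hdisj] at hfin
  omega

theorem gate_of_out {n : ℕ} (hn : 2 ≤ n) (T : ℕ) (c : ℕ → Fin n → ℂ)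
    (hout : ∀ j : Fin n, dftRow n j ∈ Avail c T) :
    ∀ j : Fin n, ∃ t, t < T ∧ c t = dftRow n j := by
  intro j
  rcases hout j with h | ⟨i, h⟩ | ⟨s, hs, h⟩
  · exact absurd (congrFun h ⟨0, by omega⟩) (dftRow_ne_zero j _)
  · exfalso
    obtain ⟨k, hk⟩ := exists_ne_fin hn i
    have := congrFun h k
    rw [Pi.single_apply, if_neg hk] at this
    exact dftRow_ne_zero j k this
  · exact ⟨s, hs, h.symm⟩

theorem rows_li {n : ℕ} (hn : 2 ≤ n) : LinearIndependent ℂ (fun j : Fin n => dftRow n j) := by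
  have hζ := zeta_prim hn
  have hdet : (Matrix.vandermonde (fun j : Fin n =>
      Complex.exp (2 * (Real.pi : ℂ) * Complex.I / (n : ℂ)) ^ (j : ℕ))).det ≠ 0 := by
    rw [Matrix.det_vandermonde_ne_zero_iff]
    intro j j' h
    exact Fin.ext (hζ.pow_inj j.isLt j'.isLt h)
  have hli := Matrix.linearIndependent_rows_of_det_ne_zero hdet
  have e : (fun j : Fin n => dftRow n j) = fun i => (Matrix.vandermonde (fun j : Fin n =>
      Complex.exp (2 * (Real.pi : ℂ) * Complex.I / (n : ℂ)) ^ (j : ℕ))) i := by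
    funext j k
    simp [dftRow, Matrix.vandermonde_apply, pow_mul]
  rw [e]
  exact hli


open Classical in
/-- The rational span, inside `Fin n → ℂ`, of the standard basis vectors (the inputs) and of
the values of the scalar-type gates `s < T`. -/
noncomputable def Vsp {n : ℕ} (T : ℕ) (c : ℕ → Fin n → ℂ) : Submodule ℚ (Fin n → ℂ) :=
  Submodule.span ℚ (↑((Finset.univ.image (fun i : Fin n => (Pi.single i (1 : ℂ) : Fin n → ℂ))) ∪
    (((range T).filter (fun s => Scal c s)).image (fun s => c s))) : Set (Fin n → ℂ))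

theorem single_mem_Vsp {n : ℕ} (T : ℕ) (c : ℕ → Fin n → ℂ) (i : Fin n) :
    (Pi.single i (1 : ℂ) : Fin n → ℂ) ∈ Vsp T c := by
  classical
  apply Submodule.subset_span
  rw [Finset.coe_union, Finset.coe_image]
  exact Or.inl ⟨i, by simp, rfl⟩

theorem S1V {n : ℕ} (T : ℕ) (c : ℕ → Fin n → ℂ) (hc : IsLinearCircuit T c) :
    ∀ t, t < T → c t ∈ Vsp T c := by
  classical
  intro t
  induction t using Nat.strong_induction_on with
  | _ t ih =>
    intro htT
    by_cases hs : Scal c t
    · apply Submodule.subset_span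
      rw [Finset.coe_union, Finset.coe_image, Finset.coe_image]
      exact Or.inr ⟨t, by simp [htT, hs], rfl⟩
    · have hbin := (hc t htT).resolve_right hs
      obtain ⟨u, hu, v, hv, huv⟩ := hbin
      have havail : ∀ w ∈ Avail c t, w ∈ Vsp T c := by
        intro w hw
        rcases hw with rfl | ⟨i, rfl⟩ | ⟨s, hs', rfl⟩
        · exact Submodule.zero_mem _
        · exact single_mem_Vsp T c i
        · exact ih s hs' (lt_trans hs' htT)
      rcases huv with h | h
      · rw [h]
        exact Submodule.add_mem _ (havail u hu) (havail v hv)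
      · rw [h]
        exact Submodule.sub_mem _ (havail u hu) (havail v hv)

open Classical in
theorem finrank_Vsp_le {n : ℕ} (T : ℕ) (c : ℕ → Fin n → ℂ) :
    finrank ℚ (Vsp T c) ≤ n + ((range T).filter (fun s => Scal c s)).card := by
  unfold Vsp
  refine (finrank_span_finset_le_card (R := ℚ) _).trans ?_
  refine (Finset.card_union_le _ _).trans ?_
  have h1 : (Finset.univ.image
      (fun i : Fin n => (Pi.single i (1 : ℂ) : Fin n → ℂ))).card ≤ n := by
    refine Finset.card_image_le.trans ?_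
    simp
  have h2 := Finset.card_image_le (s := (range T).filter (fun s => Scal c s)) (f := fun s => c s)
  omega

/-- The rational-linear map `(a, b) ↦ ∑ a_i e_i + ∑ b_j F_j` (`F_j` the rows of the DFT). -/
noncomputable def PhiMap (n : ℕ) : ((Fin n → ℚ) × (Fin n → ℚ)) →ₗ[ℚ] (Fin n → ℂ) where
  toFun p := fun k => (p.1 k : ℂ) + ∑ j, (p.2 j : ℂ) * dftRow n j k
  map_add' := by
    intro p q
    funext k
    simp only [Prod.fst_add, Prod.snd_add, Pi.add_apply, Rat.cast_add, add_mul,
      Finset.sum_add_distrib]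
    ring
  map_smul' := by
    intro r p
    funext k
    simp only [Prod.smul_fst, Prod.smul_snd, Pi.smul_apply, smul_eq_mul, Rat.cast_mul,
      RingHom.id_apply, Rat.smul_def, mul_add, Finset.mul_sum]
    congr 1
    apply Finset.sum_congr rfl
    intro j _
    ring

theorem Phi_apply {n : ℕ} (p : (Fin n → ℚ) × (Fin n → ℚ)) (k : Fin n) :
    PhiMap n p k = (p.1 k : ℂ) + ∑ j, (p.2 j : ℂ) * dftRow n j k := rfl

theorem Phi_eq {n : ℕ} (p : (Fin n → ℚ) × (Fin n → ℚ)) :
    PhiMap n p = ∑ i, (p.1 i) • (Pi.single i (1 : ℂ) : Fin n → ℂ) + ∑ j, (p.2 j) • dftRow n j := by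
  funext k
  rw [Phi_apply]
  simp only [Pi.add_apply, Finset.sum_apply, Pi.smul_apply, Rat.smul_def, Pi.single_apply]
  congr 1
  simp

theorem card_Dt_le (n : ℕ) (hn : 2 ≤ n) :
    Fintype.card {k : Fin n // k.val = 0 ∨ k.val ∣ n} ≤ (Nat.divisors n).card := by
  rw [← Fintype.card_coe (Nat.divisors n)]
  apply Fintype.card_le_of_injective (fun k : {k : Fin n // k.val = 0 ∨ k.val ∣ n} =>
    (⟨if k.1.val = 0 then n else k.1.val, by
      rw [Nat.mem_divisors]
      refine ⟨?_, by omega⟩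
      split_ifs with h
      · exact dvd_rfl
      · exact k.2.resolve_left h⟩ : {d // d ∈ Nat.divisors n}))
  intro k k' h
  simp only [Subtype.mk.injEq] at h
  apply Subtype.ext
  apply Fin.ext
  have h1 := k.1.isLt
  have h2 := k'.1.isLt
  split_ifs at h <;> omega

/-- Galois conjugacy: a rational polynomial vanishing at `ζ^gcd(n,k)` vanishes at `ζ^k`. -/
theorem conj_eval {n : ℕ} (hn : 2 ≤ n) (b : Fin n → ℚ) (k : ℕ) (hk : 0 < k)
    (h : ∑ j : Fin n, (b j : ℂ) *
      Complex.exp (2 * (Real.pi : ℂ) * Complex.I / (n : ℂ)) ^ (j.val * Nat.gcd n k) = 0) :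
    ∑ j : Fin n, (b j : ℂ) *
      Complex.exp (2 * (Real.pi : ℂ) * Complex.I / (n : ℂ)) ^ (j.val * k) = 0 := by
  have hζ := zeta_prim hn
  set ζ := Complex.exp (2 * (Real.pi : ℂ) * Complex.I / (n : ℂ)) with hζdef
  set g := Nat.gcd n k with hg
  have hgpos : 0 < g := Nat.gcd_pos_of_pos_right n hk
  have hgn : g ∣ n := Nat.gcd_dvd_left n k
  have hgk : g ∣ k := Nat.gcd_dvd_right n k
  have hmpos : 0 < n / g := Nat.div_pos (Nat.le_of_dvd (by omega) hgn) hgpos
  have hprim1 : IsPrimitiveRoot (ζ ^ g) (n / g) :=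
    hζ.pow (by omega) (Nat.mul_div_cancel' hgn).symm
  have hcop : Nat.Coprime (k / g) (n / g) := by
    have := Nat.coprime_div_gcd_div_gcd (m := n) (n := k) hgpos
    exact this.symm
  have hprim2 : IsPrimitiveRoot (ζ ^ k) (n / g) := by
    have := hprim1.pow_of_coprime (k / g) hcop
    rwa [← pow_mul, Nat.mul_div_cancel' hgk] at this
  have hmin : minpoly ℚ (ζ ^ g) = minpoly ℚ (ζ ^ k) := by
    rw [← Polynomial.cyclotomic_eq_minpoly_rat hprim1 hmpos,
      ← Polynomial.cyclotomic_eq_minpoly_rat hprim2 hmpos]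
  let P : Polynomial ℚ := ∑ j : Fin n, Polynomial.C (b j) * Polynomial.X ^ j.val
  have haev : ∀ z : ℂ, Polynomial.aeval z P = ∑ j : Fin n, (b j : ℂ) * z ^ j.val := by
    intro z
    simp only [P, map_sum, map_mul, Polynomial.aeval_C, map_pow, Polynomial.aeval_X]
    apply Finset.sum_congr rfl
    intro j _
    simp
  have h0 : Polynomial.aeval (ζ ^ g) P = 0 := by
    rw [haev, ← h]
    apply Finset.sum_congr rfl
    intro j _
    rw [← pow_mul, mul_comm g j.val]
  have hdvd := minpoly.dvd ℚ (ζ ^ g) h0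
  rw [hmin] at hdvd
  obtain ⟨Q, hQ⟩ := hdvd
  have h1 : Polynomial.aeval (ζ ^ k) P = 0 := by
    rw [hQ, map_mul, minpoly.aeval, zero_mul]
  rw [haev] at h1
  rw [← h1]
  apply Finset.sum_congr rfl
  intro j _
  rw [← pow_mul, mul_comm k j.val]

open Classical in
theorem partD {n : ℕ} (hn : 2 ≤ n) (T : ℕ) (c : ℕ → Fin n → ℂ)
    (hc : IsLinearCircuit T c) (hgate : ∀ j : Fin n, ∃ t, t < T ∧ c t = dftRow n j) :
    n ≤ ((range T).filter (fun s => Scal c s)).card + (Nat.divisors n).card := by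
  have hV : ∀ p, PhiMap n p ∈ Vsp T c := by
    intro p
    rw [Phi_eq]
    apply Submodule.add_mem
    · apply Submodule.sum_mem
      intro i _
      exact Submodule.smul_mem _ _ (single_mem_Vsp T c i)
    · apply Submodule.sum_mem
      intro j _
      obtain ⟨t, ht, htc⟩ := hgate j
      rw [← htc]
      exact Submodule.smul_mem _ _ (S1V T c hc t ht)
  let Ψ : ((Fin n → ℚ) × (Fin n → ℚ)) →ₗ[ℚ]
      ((Vsp T c) × ({k : Fin n // k.val = 0 ∨ k.val ∣ n} → ℚ)) :=
    LinearMap.prod (LinearMap.codRestrict (Vsp T c) (PhiMap n) hV)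
      ((LinearMap.funLeft ℚ ℚ (Subtype.val : {k : Fin n // k.val = 0 ∨ k.val ∣ n} → Fin n)).comp
        (LinearMap.fst ℚ (Fin n → ℚ) (Fin n → ℚ)))
  have hinj : Function.Injective Ψ := by
    rw [injective_iff_map_eq_zero]
    intro p hp
    have hp1 : PhiMap n p = 0 := by
      have := congrArg (fun q => (q.1 : Fin n → ℂ)) hp
      simpa [Ψ] using this
    have hp2 : ∀ k : Fin n, (k.val = 0 ∨ k.val ∣ n) → p.1 k = 0 := by
      intro k hk
      have := congrArg (fun q => q.2 ⟨k, hk⟩) hp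
      simpa [Ψ, LinearMap.funLeft_apply] using this
    have hrow : ∀ k : Fin n, (p.1 k : ℂ) + ∑ j, (p.2 j : ℂ) * dftRow n j k = 0 := by
      intro k
      rw [← Phi_apply, hp1]
      rfl
    have ha : ∀ k : Fin n, p.1 k = 0 := by
      intro k
      by_cases hk0 : k.val = 0
      · exact hp2 k (Or.inl hk0)
      · have hkpos : 0 < k.val := Nat.pos_of_ne_zero hk0
        have hgle : Nat.gcd n k.val ≤ k.val := Nat.gcd_le_right _ hkpos
        have hglt : Nat.gcd n k.val < n := lt_of_le_of_lt hgle k.isLt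
        have hg0 := hp2 ⟨Nat.gcd n k.val, hglt⟩ (Or.inr (Nat.gcd_dvd_left n k.val))
        have hrg := hrow ⟨Nat.gcd n k.val, hglt⟩
        rw [hg0, Rat.cast_zero, zero_add] at hrg
        have hk' := conj_eval hn p.2 k.val hkpos hrg
        have hrk := hrow k
        have e : ∑ j, (p.2 j : ℂ) * dftRow n j k = 0 := hk'
        rw [e, add_zero] at hrk
        exact_mod_cast hrk
    have hb : ∀ j : Fin n, p.2 j = 0 := by
      have hli := rows_li hn
      rw [Fintype.linearIndependent_iff] at hli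
      have hsum : ∑ j, (p.2 j : ℂ) • dftRow n j = 0 := by
        funext k
        have hrk := hrow k
        rw [ha k, Rat.cast_zero, zero_add] at hrk
        simp only [Finset.sum_apply, Pi.smul_apply, smul_eq_mul, Pi.zero_apply]
        exact hrk
      intro j
      have := hli (fun j => (p.2 j : ℂ)) hsum j
      exact_mod_cast this
    apply Prod.ext
    · funext k
      exact ha k
    · funext j
      exact hb j
  have : Module.Finite ℚ (Vsp T c) := by
    unfold Vsp
    infer_instance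
  have h1 := LinearMap.finrank_le_finrank_of_injective hinj
  rw [Module.finrank_prod, Module.finrank_prod, Module.finrank_fin_fun,
    Module.finrank_fintype_fun_eq_card] at h1
  have h2 := finrank_Vsp_le T c
  have h3 := card_Dt_le n hn
  omega

theorem result (n : ℕ) (hn : 2 ≤ n) (T : ℕ) (c : ℕ → Fin n → ℂ)
    (hc : IsLinearCircuit T c) (hout : ∀ j : Fin n, dftRow n j ∈ Avail c T) :
    2 * n - 2 + (n - (Nat.divisors n).card) ≤ T := by
  classical
  have hB := partB hn T c hc hout
  have hD := partD hn T c hc (gate_of_out hn T c hout)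
  have hsum := Finset.card_filter_add_card_filter_not (s := range T) (fun s => Scal c s)
  rw [Finset.card_range] at hsum
  omega

end Vale.Agent.Results.P344.LinearBound
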